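import Vale.Agent.P204.DC.Stmt

/-!
# P204: currents on an almost complex manifold, and symmetries of an almost complex structure
-/

open scoped Manifold ContDiff Topology

namespace Vale.Agent.P204.DC

section

variable {E : Type*} [NormedAddCommGroup E] [NormedSpace ℝ E]
variable {X : Type*} [TopologicalSpace X] [ChartedSpace E X]

/-- `T` is a linear functional on the space of the smooth two-forms (its values on other forms are
irrelevant). -/
structure IsCurrent (T : TwoForm E X → ℝ) : Prop where
  add : ∀ a b : TwoForm E X, SmoothForm a → SmoothForm b → T (fun x => a x + b x) = T a + T b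
  smul : ∀ (c : ℝ) (a : TwoForm E X), SmoothForm a → T (fun x => c • a x) = c * T a

/-- `T` is nonnegative on each smooth two-form which is nonnegative on all `J`-complex lines. -/
def PositiveCurrent (J : EndField E X) (T : TwoForm E X → ℝ) : Prop :=
  ∀ om : TwoForm E X, SmoothForm om →
    (∀ x (v : TangentSpace 𝓘(ℝ, E) x), 0 ≤ om x ![v, J x v]) → 0 ≤ T om

/-- `T` vanishes on the closed smooth two-forms. -/
def VanishesOnClosed (T : TwoForm E X → ℝ) : Prop :=
  ∀ om : TwoForm E X, SmoothForm om → ClosedForm om → T om = 0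

/-- The group `G` acts on `X` by smooth maps which are `J`-holomorphic (`eps g = 1`) or
`J`-antiholomorphic (`eps g = -1`). -/
structure ActsBySymmetries (G : Type*) [Group G] [MulAction G X] (eps : G →* ℤˣ)
    (J : EndField E X) : Prop where
  smooth : ∀ g : G, ContMDiff 𝓘(ℝ, E) 𝓘(ℝ, E) ∞ (fun x : X => g • x)
  comm : ∀ (g : G) (x : X) (v : TangentSpace 𝓘(ℝ, E) x),
    mfderiv 𝓘(ℝ, E) 𝓘(ℝ, E) (fun x : X => g • x) x (J x v) =
      ((eps g : ℤ) : ℝ) • J (g • x) (mfderiv 𝓘(ℝ, E) 𝓘(ℝ, E) (fun x : X => g • x) x v)

/-- The form `om` is multiplied by `eps g` under the pullback by `g`, for all `g` in `G`. -/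
def Equivariant (G : Type*) [Group G] [MulAction G X] (eps : G →* ℤˣ) (om : TwoForm E X) : Prop :=
  ∀ (g : G) (x : X) (u v : TangentSpace 𝓘(ℝ, E) x),
    om (g • x) ![mfderiv 𝓘(ℝ, E) 𝓘(ℝ, E) (fun x : X => g • x) x u,
      mfderiv 𝓘(ℝ, E) 𝓘(ℝ, E) (fun x : X => g • x) x v] = ((eps g : ℤ) : ℝ) * om x ![u, v]

end

/-- An almost complex structure on a closed connected four-manifold is compatible with a symplectic
form if and only if the only positive current which vanishes on the closed forms is zero. -/
def CurrentCriterion.{u} : Prop :=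
  ∀ (X : Type u) [TopologicalSpace X] [ChartedSpace (EuclideanSpace ℝ (Fin 4)) X]
    [IsManifold (𝓡 4) ∞ X] [CompactSpace X] [T2Space X] [ConnectedSpace X]
    (J : EndField (EuclideanSpace ℝ (Fin 4)) X), AlmostComplex J →
    ((∃ om : TwoForm (EuclideanSpace ℝ (Fin 4)) X, Symplectic om ∧ Compatible om J) ↔
      ∀ T : TwoForm (EuclideanSpace ℝ (Fin 4)) X → ℝ, IsCurrent T → PositiveCurrent J T →
        VanishesOnClosed T → ∀ om : TwoForm (EuclideanSpace ℝ (Fin 4)) X,
          SmoothForm om → T om = 0)

/-- Donaldson's question for almost complex structures with symmetries: if `J` is tamed by some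
symplectic form and a finite group `G` acts by `J`-holomorphic and `J`-antiholomorphic
diffeomorphisms (with sign `eps`), then `J` is compatible with a symplectic form `om` with
`g^* om = eps(g) om` for all `g` in `G`. -/
def EquivariantDonaldson.{u, w} : Prop :=
  ∀ (X : Type u) [TopologicalSpace X] [ChartedSpace (EuclideanSpace ℝ (Fin 4)) X]
    [IsManifold (𝓡 4) ∞ X] [CompactSpace X] [T2Space X] [ConnectedSpace X]
    (J : EndField (EuclideanSpace ℝ (Fin 4)) X), AlmostComplex J →
    ∀ (G : Type w) [Group G] [Finite G] [MulAction G X] (eps : G →* ℤˣ),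
    ActsBySymmetries G eps J →
    (∃ om : TwoForm (EuclideanSpace ℝ (Fin 4)) X, Symplectic om ∧ Tames om J) →
    ∃ om : TwoForm (EuclideanSpace ℝ (Fin 4)) X,
      Symplectic om ∧ Compatible om J ∧ Equivariant G eps om

end Vale.Agent.P204.DC
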