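import Vale.Agent.P204.H298.Pull

attribute [-instance] ProperSMul.toContinuousSMul IsTopologicalTorsor.toContinuousSMul IdemSemiring.toCanonicallyOrderedAdd IdemSemiring.toMulLeftMono IdemSemiring.toMulRightMono AddQuantale.instAddLeftMono AddQuantale.instAddRightMono Quantale.instMulLeftMono Quantale.instMulRightMono FiniteDimensional.rclike_to_real IsScalarTower.complexToReal FiniteDimensional.complexToReal

set_option linter.all false

/-!
# P204: closed forms are a subspace; averaging over a finite group of symmetries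
-/

open scoped Manifold ContDiff Topology
open Set

namespace Vale.Agent.P204.H298

open Vale.Agent.P204.Mfd Vale.Agent.P204.T4

/-- The closed forms as a subspace of the smooth forms. -/
def ClosedForms (X : Type*) [TopologicalSpace X] [ChartedSpace E4 X] :
    Submodule ℝ (DC.SmoothForms E4 X) where
  carrier := {om | DC.ClosedForm (om : DC.TwoForm E4 X)}
  zero_mem' := by
    intro e _ y _
    change extDeriv (DC.pullForm e.symm (0 : DC.TwoForm E4 X)) y = 0
    rw [DC.pullForm_zero]
    have h : (0 : E4 → E4 [⋀^Fin 2]→L[ℝ] ℝ) = (0 : ℝ) • (0 : E4 → E4 [⋀^Fin 2]→L[ℝ] ℝ) :=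
      (zero_smul _ _).symm
    rw [h, extDeriv_smul, zero_smul]
  add_mem' := by
    intro a b ha hb e he y hy
    change extDeriv (DC.pullForm e.symm ((a : DC.TwoForm E4 X) + (b : DC.TwoForm E4 X))) y = 0
    rw [DC.pullForm_add]
    have hda := ((a.2 e he _ hy).contDiffAt (e.open_target.mem_nhds hy)).differentiableAt
      (by simp)
    have hdb := ((b.2 e he _ hy).contDiffAt (e.open_target.mem_nhds hy)).differentiableAt
      (by simp)
    rw [extDeriv_add hda hdb, ha e he y hy, hb e he y hy, add_zero]
  smul_mem' := by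
    intro c a ha e he y hy
    change extDeriv (DC.pullForm e.symm (c • (a : DC.TwoForm E4 X))) y = 0
    rw [DC.pullForm_smul]
    rw [extDeriv_smul, ha e he y hy, smul_zero]

theorem upd_one (a b c : E4) : Function.update ![a, b] 1 c = ![a, c] := by
  funext i
  fin_cases i <;> rfl

theorem upd_zero (a b c : E4) : Function.update ![a, b] 0 c = ![c, b] := by
  funext i
  fin_cases i <;> rfl

theorem alt_smul_right (A : E4 [⋀^Fin 2]→L[ℝ] ℝ) (c : ℝ) (a b : E4) :
    A ![a, c • b] = c * A ![a, b] := by
  have h := A.map_update_smul ![a, b] 1 c b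
  rw [upd_one, upd_one] at h
  exact h

theorem alt_smul_left (A : E4 [⋀^Fin 2]→L[ℝ] ℝ) (c : ℝ) (a b : E4) :
    A ![c • a, b] = c * A ![a, b] := by
  have h := A.map_update_smul ![a, b] 0 c a
  rw [upd_zero, upd_zero] at h
  exact h

variable {X : Type*} [TopologicalSpace X] [ChartedSpace E4 X] [IsManifold (𝓡 4) ∞ X]

theorem symplectic_of {J : Mfd.EndField X} {om : Mfd.TwoForm X} (h1 : Mfd.SmoothForm om)
    (h2 : Mfd.ClosedForm om) (h3 : Mfd.Tames om J) : Mfd.Symplectic om where
  smooth := h1
  closed := h2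
  nondegenerate := by
    intro x v hv
    by_contra hne
    have := h3 x v hne
    rw [hv] at this
    exact lt_irrefl _ this

section

variable {G : Type*} [Group G] [Fintype G] [MulAction G X] {eps : G →* ℤˣ}
variable (hs : ∀ g : G, ContMDiff (𝓡 4) (𝓡 4) ∞ (fun x : X => g • x))

/-- the action of a group element -/
def act (g : G) (x : X) : X := g • x

/-- the sign as a real number -/
def sgn (eps : G →* ℤˣ) (g : G) : ℝ := ((eps g : ℤ) : ℝ)

theorem sgn_sq (g : G) : sgn eps g * sgn eps g = 1 := by
  unfold sgn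
  rw [← Int.cast_mul, Int.units_coe_mul_self, Int.cast_one]

theorem sgn_mul (g h : G) : sgn eps (g * h) = sgn eps g * sgn eps h := by
  unfold sgn
  rw [map_mul, Units.val_mul, Int.cast_mul]

/-- the average -/
noncomputable def avg (eps : G →* ℤˣ) (om : Mfd.TwoForm X) : Mfd.TwoForm X :=
  ∑ g : G, sgn eps g • pb (act g) om

theorem avg_apply (om : Mfd.TwoForm X) (x : X) (u v : E4) :
    avg eps om x ![u, v] =
      ∑ g : G, sgn eps g * om (act g x) ![dmap (act g) x u, dmap (act g) x v] := by
  have h1 : ∀ s : Finset G, (∑ g ∈ s, sgn eps g • pb (act g) om) x ![u, v] =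
      ∑ g ∈ s, sgn eps g * om (act g x) ![dmap (act g) x u, dmap (act g) x v] := by
    classical
    intro s
    induction s using Finset.induction_on with
    | empty => rfl
    | insert a s ha ih =>
      rw [Finset.sum_insert ha, Finset.sum_insert ha, ← ih, ← pb_apply]
      rfl
  exact h1 Finset.univ

include hs

theorem avg_mem {om : Mfd.TwoForm X} (h1 : Mfd.SmoothForm om) (h2 : Mfd.ClosedForm om) :
    Mfd.SmoothForm (avg eps om) ∧ Mfd.ClosedForm (avg eps om) := by
  have hsm : ∀ g : G, pb (act g) om ∈ DC.SmoothForms E4 X := fun g => pb_smoothForm (hs g) h1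
  have hcl : ∀ g : G, (⟨pb (act g) om, hsm g⟩ : DC.SmoothForms E4 X) ∈ ClosedForms X :=
    fun g => pb_closedForm (hs g) h1 h2
  have h3 : (∑ g : G, sgn eps g • (⟨pb (act g) om, hsm g⟩ : DC.SmoothForms E4 X)) ∈
      ClosedForms X := Submodule.sum_mem _ fun g _ => Submodule.smul_mem _ _ (hcl g)
  have h4 : ((∑ g : G, sgn eps g • (⟨pb (act g) om, hsm g⟩ : DC.SmoothForms E4 X) :
      DC.SmoothForms E4 X) : DC.TwoForm E4 X) = avg eps om := by
    rw [AddSubmonoidClass.coe_finset_sum]
    rfl
  constructor
  · have := (∑ g : G, sgn eps g • (⟨pb (act g) om, hsm g⟩ : DC.SmoothForms E4 X)).2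
    rw [h4] at this
    exact this
  · have h5 : DC.ClosedForm ((∑ g : G, sgn eps g •
      (⟨pb (act g) om, hsm g⟩ : DC.SmoothForms E4 X) : DC.SmoothForms E4 X) :
        DC.TwoForm E4 X) := h3
    rw [h4] at h5
    exact h5

theorem dmap_comp (g h : G) (x : X) (v : E4) :
    dmap (act (g * h)) x v = dmap (act g) (act h x) (dmap (act h) x v) := by
  have h1 := mfderiv_comp (I := 𝓡 4) (I' := 𝓡 4) (I'' := 𝓡 4) x
    ((hs g (act h x)).mdifferentiableAt (by simp)) ((hs h x).mdifferentiableAt (by simp))
  have h2 : (fun x : X => g • x) ∘ (act h : X → X) = act (g * h) := by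
    funext y
    exact (mul_smul g h y).symm
  rw [h2] at h1
  exact DFunLike.congr_fun h1 v

theorem dmap_ne (g : G) (x : X) {v : E4} (hv : v ≠ 0) : dmap (act g) x v ≠ 0 := by
  intro h0
  have h1 := dmap_comp hs g⁻¹ g x v
  rw [h0, map_zero] at h1
  have h2 : (act (g⁻¹ * g) : X → X) = id := by
    funext y
    show (g⁻¹ * g) • y = y
    rw [inv_mul_cancel, one_smul]
  have h3 : dmap (X := X) (act (g⁻¹ * g)) x v = v := by
    rw [h2]
    unfold dmap
    rw [mfderiv_id]
    rfl
  rw [h3] at h1
  exact hv h1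

theorem avg_equivariant (om : Mfd.TwoForm X) (h : G) (x : X) (u v : E4) :
    avg eps om (act h x) ![dmap (act h) x u, dmap (act h) x v] =
      sgn eps h * avg eps om x ![u, v] := by
  rw [avg_apply, avg_apply, Finset.mul_sum]
  refine Fintype.sum_equiv (Equiv.mulRight h) _ _ fun g => ?_
  show _ = sgn eps h * (sgn eps (g * h) * om (act (g * h) x)
    ![dmap (act (g * h)) x u, dmap (act (g * h)) x v])
  rw [dmap_comp hs g h, dmap_comp hs g h, sgn_mul]
  have h1 : om (act (g * h) x) ![dmap (act g) (act h x) (dmap (act h) x u),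
      dmap (act g) (act h x) (dmap (act h) x v)] =
      om (act g (act h x)) ![dmap (act g) (act h x) (dmap (act h) x u),
      dmap (act g) (act h x) (dmap (act h) x v)] := om_congr om (mul_smul g h x) _ _
  rw [h1]
  have h2 : sgn eps h * sgn eps h = 1 := sgn_sq h
  linear_combination (-(sgn eps g) * om (act g (act h x))
    ![dmap (act g) (act h x) (dmap (act h) x u),
      dmap (act g) (act h x) (dmap (act h) x v)]) * h2

variable {J : Mfd.EndField X}
  (hJ : ∀ (g : G) (x : X) (v : E4),
    dmap (act g) x (Jat J x v) = sgn eps g • Jat J (act g x) (dmap (act g) x v))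

include hJ

theorem avg_pos {om : Mfd.TwoForm X} (hc : Mfd.Compatible om J) (x : X) (v : E4) (hv : v ≠ 0) :
    0 < avg eps om x ![v, Jat J x v] := by
  rw [avg_apply]
  have h1 : ∀ g : G, sgn eps g * om (act g x) ![dmap (act g) x v, dmap (act g) x (Jat J x v)] =
      om (act g x) ![dmap (act g) x v, Jat J (act g x) (dmap (act g) x v)] := by
    intro g
    rw [hJ]
    have h2 : om (act g x) ![dmap (act g) x v,
        sgn eps g • Jat J (act g x) (dmap (act g) x v)] =
        sgn eps g * om (act g x) ![dmap (act g) x v, Jat J (act g x) (dmap (act g) x v)] :=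
      alt_smul_right (om (act g x)) _ _ _
    rw [h2, ← mul_assoc, sgn_sq, one_mul]
  rw [Finset.sum_congr rfl fun g _ => h1 g]
  exact Finset.sum_pos (fun g _ => hc.tames (act g x) _ (dmap_ne hs g x hv))
    ⟨1, Finset.mem_univ _⟩

theorem avg_inv {om : Mfd.TwoForm X} (hc : Mfd.Compatible om J) (x : X) (u v : E4) :
    avg eps om x ![Jat J x u, Jat J x v] = avg eps om x ![u, v] := by
  rw [avg_apply, avg_apply]
  refine Finset.sum_congr rfl fun g _ => ?_
  rw [hJ, hJ]
  have h2 : ∀ a b : E4, om (act g x) ![sgn eps g • a, sgn eps g • b] =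
      om (act g x) ![a, b] := by
    intro a b
    have e1 : om (act g x) ![sgn eps g • a, sgn eps g • b] =
      sgn eps g * om (act g x) ![sgn eps g • a, b] := alt_smul_right (om (act g x)) _ _ _
    have e2 : om (act g x) ![sgn eps g • a, b] =
      sgn eps g * om (act g x) ![a, b] := alt_smul_left (om (act g x)) _ _ _
    rw [e1, e2, ← mul_assoc, sgn_sq, one_mul]
  rw [h2]
  congr 1
  exact hc.invariant (act g x) _ _

theorem avg_compatible {om : Mfd.TwoForm X} (hc : Mfd.Compatible om J) :
    Mfd.Compatible (avg eps om) J where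
  tames := fun x v hv => avg_pos hs hJ hc x v hv
  invariant := fun x u v => avg_inv hs hJ hc x u v

end

/-- Donaldson's conjecture with a finite group of symmetries. -/
theorem equivariant.{u, w} (h : DC.Donaldson.{u}) : DC.EquivariantDonaldson.{u, w} := by
  intro X _ _ _ _ _ _ J hJ G _ _ _ eps hG hT
  have := Fintype.ofFinite G
  obtain ⟨om, h1, h2⟩ := h X J hJ hT
  have hs : ∀ g : G, ContMDiff (𝓡 4) (𝓡 4) ∞ (fun x : X => g • x) := hG.smooth
  have hJ' : ∀ (g : G) (x : X) (v : E4),
      dmap (act g) x (Jat J x v) = sgn eps g • Jat J (act g x) (dmap (act g) x v) := hG.comm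
  have hc : Mfd.Compatible (X := X) om J := ⟨h2.tames, h2.invariant⟩
  have h3 := avg_compatible (eps := eps) hs hJ' hc
  have h4 := avg_mem (eps := eps) hs (om := om) h1.smooth h1.closed
  have h5 := symplectic_of h4.1 h4.2 h3.tames
  exact ⟨avg eps om, ⟨h5.smooth, h5.closed, h5.nondegenerate⟩, ⟨h3.tames, h3.invariant⟩,
    fun g x u v => avg_equivariant hs om g x u v⟩

end Vale.Agent.P204.H298
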