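import Vale.Agent.P204.DC.Stmt

/-!
# P204: the vector space of the smooth two-forms
-/

open scoped Manifold ContDiff Topology

namespace Vale.Agent.P204.DC

section

variable {E : Type*} [NormedAddCommGroup E] [NormedSpace ℝ E]
variable {X : Type*} [TopologicalSpace X] [ChartedSpace E X]

theorem pullForm_zero (f : E → X) : pullForm f (0 : TwoForm E X) = 0 := by
  funext y
  ext m
  rfl

theorem pullForm_add (f : E → X) (a b : TwoForm E X) :
    pullForm f (a + b) = pullForm f a + pullForm f b := by
  funext y
  ext m
  rfl

theorem pullForm_smul (f : E → X) (c : ℝ) (a : TwoForm E X) :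
    pullForm f (c • a) = c • pullForm f a := by
  funext y
  ext m
  rfl

variable (E X) in
/-- The real vector space of the smooth two-forms on `X`. -/
def SmoothForms : Submodule ℝ (TwoForm E X) where
  carrier := {om | SmoothForm om}
  zero_mem' := by
    intro e _
    rw [pullForm_zero]
    exact contDiffOn_const (c := (0 : E [⋀^Fin 2]→L[ℝ] ℝ))
  add_mem' := by
    intro a b ha hb e he
    rw [pullForm_add]
    exact (ha e he).add (hb e he)
  smul_mem' := by
    intro c a ha e he
    rw [pullForm_smul]
    exact (ha e he).const_smul c

end

end Vale.Agent.P204.DC
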