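import Vale.Agent.P204.H298.Sull

attribute [-instance] ProperSMul.toContinuousSMul IsTopologicalTorsor.toContinuousSMul IdemSemiring.toCanonicallyOrderedAdd IdemSemiring.toMulLeftMono IdemSemiring.toMulRightMono AddQuantale.instAddLeftMono AddQuantale.instAddRightMono Quantale.instMulLeftMono Quantale.instMulRightMono FiniteDimensional.rclike_to_real IsScalarTower.complexToReal FiniteDimensional.complexToReal

set_option linter.all false

/-!
# P204: a smooth form which is positive on all complex lines, and the current criterion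
-/

open scoped Manifold ContDiff Topology
open Set

namespace Vale.Agent.P204.H298

open Vale.Agent.P204.Mfd Vale.Agent.P204.T4

section

variable {X : Type*} [TopologicalSpace X] [ChartedSpace E4 X] [IsManifold (𝓡 4) ∞ X]

/-- the form with components `h` in the parametrisation `p`, extended by zero -/
noncomputable def ext2 (p : Par X) (h : V4 → L2) : Mfd.TwoForm X := fun x =>
  (toAlt (extZ p h x)).compContinuousLinearMap (p.dinv x)

theorem ext2_apply (p : Par X) (h : V4 → L2) (x : X) (u v : E4) :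
    ext2 p h x ![u, v] = ev (extZ p h x) (p.dinv x u) (p.dinv x v) :=
  comp_apply2 (E := E4) (F := V4) (toAlt (extZ p h x)) (p.dinv x) u v

theorem form_ext2 (p q : Par X) (h : V4 → L2) {y : V4} (hy : y ∈ Par.dom q p) :
    compL (q.form (ext2 p h) y) = pull (matL (fderiv ℝ (Par.tau q p) y)) (h (Par.tau q p y)) := by
  apply ext_ev
  intro v w
  rw [ev_compL, Par.form_apply, ext2_apply, ev_pull, app_matL, app_matL]
  have h1 : extZ p h (q.psi y) = h (Par.tau q p y) := by
    unfold extZ
    rw [if_pos (show q.psi y ∈ range p.psi from hy)]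
    rfl
  have h2 : ∀ v, p.dinv (q.psi y) (q.dpsi y v) = fderiv ℝ (Par.tau q p) y v := by
    intro v
    have h3 : q.dpsi y v = p.dpsi (Par.tau q p y) (fderiv ℝ (Par.tau q p) y v) :=
      DFunLike.congr_fun (Par.dpsi_tau hy) v
    have h4 : p.psi (Par.tau q p y) = q.psi y := Par.psi_tau hy
    rw [h3, ← h4, p.dinv_dpsi]
  rw [h1, h2, h2]

theorem form_ext2_smooth [T2Space X] (p q : Par X) {h : V4 → L2} (hs : ContDiff ℝ ∞ h)
    (hc : HasCompactSupport h) : ContDiff ℝ ∞ fun y => compL (q.form (ext2 p h) y) := by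
  rw [contDiff_iff_contDiffAt]
  intro y
  by_cases hy : q.psi y ∈ range p.psi
  · have hy' : y ∈ Par.dom q p := hy
    have h1 : (fun y => compL (q.form (ext2 p h) y)) =ᶠ[𝓝 y] fun y =>
        pull (matL (fderiv ℝ (Par.tau q p) y)) (h (Par.tau q p y)) := by
      filter_upwards [(Par.isOpen_dom q p).mem_nhds hy'] with z hz
      exact form_ext2 p q h hz
    refine ContDiffAt.congr_of_eventuallyEq ?_ h1
    have ht : ContDiffAt ℝ ∞ (Par.tau q p) y :=
      (Par.tau_smooth q p _ hy').contDiffAt ((Par.isOpen_dom q p).mem_nhds hy')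
    apply contDiffAt_pull
    · exact matL.contDiff.contDiffAt.comp y (ht.fderiv_right (m := ∞) (by simp))
    · exact hs.contDiffAt.comp y ht
  · have hcl : IsClosed (p.psi '' tsupport h) :=
      (hc.isCompact.image p.isOpenEmbedding.continuous).isClosed
    have hop : IsOpen (q.psi ⁻¹' (p.psi '' tsupport h)ᶜ) :=
      hcl.isOpen_compl.preimage q.isOpenEmbedding.continuous
    have hmem : y ∈ q.psi ⁻¹' (p.psi '' tsupport h)ᶜ := by
      intro hh
      obtain ⟨w, _, hw⟩ := hh
      exact hy ⟨w, hw⟩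
    have h1 : (fun y => compL (q.form (ext2 p h) y)) =ᶠ[𝓝 y] fun _ => 0 := by
      filter_upwards [hop.mem_nhds hmem] with z hz
      apply ext_ev
      intro v w
      rw [ev_compL, Par.form_apply, ext2_apply, extZ_off p h hz]
      simp only [ev_eq, Pi.zero_apply, zero_mul, add_zero]
    exact contDiffAt_const.congr_of_eventuallyEq h1

end

section

variable {X : Type*} [TopologicalSpace X] [ChartedSpace E4 X] [IsManifold (𝓡 4) ∞ X]
  [CompactSpace X] [T2Space X] {J : Mfd.EndField X}

/-- the local Hermitian form -/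
noncomputable def hl (A : FinAtlas X J) (a : Fin A.n) (y : V4) : L2 :=
  (bmp y) • Fm (A.Jm a y)

theorem hl_smooth (hJ : Mfd.AlmostComplex J) (A : FinAtlas X J) (a : Fin A.n) :
    ContDiff ℝ ∞ (hl A a) := by
  have h1 : ContDiff ℝ ∞ (A.Jm a) := A.Jm_smooth hJ a
  have h2 : ∀ i j, ContDiff ℝ ∞ fun y => A.Jm a y i j := fun i j =>
    contDiff_pi.1 (contDiff_pi.1 h1 i) j
  have h3 : ContDiff ℝ ∞ fun y => Fm (A.Jm a y) := by
    have key : ∀ i j, ContDiff ℝ ∞ fun y => (A.Jm a y j i - A.Jm a y i j) / 2 := fun i j =>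
      ((h2 j i).sub (h2 i j)).div_const 2
    rw [contDiff_pi]
    intro k
    fin_cases k
    · exact key 0 1
    · exact key 0 2
    · exact key 0 3
    · exact key 1 2
    · exact key 1 3
    · exact key 2 3
  exact (bmp.contDiff).smul h3

theorem hl_supp (A : FinAtlas X J) (a : Fin A.n) : HasCompactSupport (hl A a) :=
  bmp.hasCompactSupport.smul_right

/-- the Hermitian form -/
noncomputable def herm (A : FinAtlas X J) : Mfd.TwoForm X := ∑ a, ext2 (A.P a) (hl A a)

theorem herm_apply (A : FinAtlas X J) (x : X) (u v : E4) :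
    herm A x ![u, v] = ∑ a, ext2 (A.P a) (hl A a) x ![u, v] := by
  have h1 : ∀ s : Finset (Fin A.n), (∑ a ∈ s, ext2 (A.P a) (hl A a)) x ![u, v] =
      ∑ a ∈ s, ext2 (A.P a) (hl A a) x ![u, v] := by
    classical
    intro s
    induction s using Finset.induction_on with
    | empty => rfl
    | insert a s ha ih =>
      rw [Finset.sum_insert ha, Finset.sum_insert ha, ← ih]
      rfl
  exact h1 Finset.univ

theorem herm_smooth (hJ : Mfd.AlmostComplex J) (A : FinAtlas X J) :
    Mfd.SmoothForm (herm A) := by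
  have hcov : ∀ x, ∃ i, x ∈ range (A.P i).psi := fun x => by
    obtain ⟨a, y, _, h⟩ := A.cov x
    exact ⟨a, y, h⟩
  refine smoothForm_of_pars A.P hcov fun b => ?_
  have h1 : (fun y => cV ((A.P b).form (herm A) y)) =
      fun y => ∑ a, compL ((A.P b).form (ext2 (A.P a) (hl A a)) y) := by
    funext y
    apply ext_ev
    intro v w
    rw [cV_apply, ev_compL, Par.form_apply, herm_apply]
    have h2 : ∀ s : Finset (Fin A.n), ev (∑ a ∈ s, compL ((A.P b).form
        (ext2 (A.P a) (hl A a)) y)) v w = ∑ a ∈ s, ev (compL ((A.P b).form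
        (ext2 (A.P a) (hl A a)) y)) v w := by
      classical
      intro s
      induction s using Finset.induction_on with
      | empty => simp only [Finset.sum_empty, ev_eq, Pi.zero_apply, zero_mul, add_zero]
      | insert a s ha ih => rw [Finset.sum_insert ha, Finset.sum_insert ha, ← ih, ev_add]
    rw [h2]
    refine Finset.sum_congr rfl fun a _ => ?_
    rw [ev_compL, Par.form_apply]
  have h3 : ContDiff ℝ ∞ fun y => cV ((A.P b).form (herm A) y) := by
    rw [h1]
    exact ContDiff.sum fun a _ => form_ext2_smooth (A.P a) (A.P b) (hl_smooth hJ A a) (hl_supp A a)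
  exact (cV.comp_contDiff_iff (f := (A.P b).form (herm A))).1 h3

theorem ext2_lv (A : FinAtlas X J) (a : Fin A.n) (y : V4) (u : E4) :
    ext2 (A.P a) (hl A a) ((A.P a).psi y) ![u, Jat J ((A.P a).psi y) u] =
      bmp y * ev (Fm (A.Jm a y)) ((A.P a).dinv ((A.P a).psi y) u)
        (app (A.Jm a y) ((A.P a).dinv ((A.P a).psi y) u)) := by
  rw [ext2_apply, extZ_psi, A.dinv_Jat]
  unfold hl
  rw [ev_eq, ev_eq]
  simp only [Pi.smul_apply, smul_eq_mul]
  ring

theorem ext2_nonneg (hJ : Mfd.AlmostComplex J) (A : FinAtlas X J) (a : Fin A.n) (x : X) (u : E4) :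
    0 ≤ ext2 (A.P a) (hl A a) x ![u, Jat J x u] := by
  by_cases hx : x ∈ range (A.P a).psi
  · obtain ⟨y, rfl⟩ := hx
    rw [ext2_lv]
    refine mul_nonneg bmp.nonneg ?_
    exact (posDef_Fm (A.isCx_Jm hJ a y)).cone.2 _
  · rw [ext2_apply]
    have : extZ (A.P a) (hl A a) x = 0 := by
      unfold extZ
      rw [if_neg hx]
    rw [this]
    simp only [ev_eq, Pi.zero_apply, zero_mul, add_zero, le_refl]

theorem herm_pos (hJ : Mfd.AlmostComplex J) (A : FinAtlas X J) (x : X) (u : E4) (hu : u ≠ 0) :
    0 < lv J (herm A) x u := by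
  unfold lv
  rw [herm_apply]
  obtain ⟨a, y, hy, rfl⟩ := A.cov x
  refine Finset.sum_pos' (fun b _ => ext2_nonneg hJ A b _ u) ⟨a, Finset.mem_univ _, ?_⟩
  rw [ext2_lv]
  have h1 : bmp y = 1 :=
    bmp.one_of_mem_closedBall (mem_closedBall_zero_iff.2 hy.le)
  rw [h1, one_mul]
  refine (posDef_Fm (A.isCx_Jm hJ a y)).2 _ fun h0 => hu ?_
  have h2 := (A.P a).dpsi_dinv y u
  rw [h0, map_zero] at h2
  exact h2.symm

end

end Vale.Agent.P204.H298
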