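import Vale.Agent.P204.H298.Herm

attribute [-instance] ProperSMul.toContinuousSMul IsTopologicalTorsor.toContinuousSMul IdemSemiring.toCanonicallyOrderedAdd IdemSemiring.toMulLeftMono IdemSemiring.toMulRightMono AddQuantale.instAddLeftMono AddQuantale.instAddRightMono Quantale.instMulLeftMono Quantale.instMulRightMono FiniteDimensional.rclike_to_real IsScalarTower.complexToReal FiniteDimensional.complexToReal

set_option linter.all false

/-!
# P204: the current criterion
-/

open scoped Manifold ContDiff Topology
open Set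

namespace Vale.Agent.P204.H298

open Vale.Agent.P204.Mfd Vale.Agent.P204.T4

section

variable {X : Type*} [TopologicalSpace X] [ChartedSpace E4 X]

theorem lv_add (J : Mfd.EndField X) (a b : DC.SmoothForms E4 X) (x : X) (v : E4) :
    lv J ((a + b : DC.SmoothForms E4 X) : DC.TwoForm E4 X) x v = lv J a x v + lv J b x v := rfl

theorem lv_smul (J : Mfd.EndField X) (c : ℝ) (a : DC.SmoothForms E4 X) (x : X) (v : E4) :
    lv J ((c • a : DC.SmoothForms E4 X) : DC.TwoForm E4 X) x v = c * lv J a x v := rfl

theorem lv_sub (J : Mfd.EndField X) (a b : DC.SmoothForms E4 X) (x : X) (v : E4) :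
    lv J ((a - b : DC.SmoothForms E4 X) : DC.TwoForm E4 X) x v = lv J a x v - lv J b x v := rfl

theorem lv_zero (J : Mfd.EndField X) (x : X) (v : E4) :
    lv J ((0 : DC.SmoothForms E4 X) : DC.TwoForm E4 X) x v = 0 := rfl

/-- The cone of the forms which are nonnegative on complex lines. -/
def cone (J : Mfd.EndField X) : PointedCone ℝ (DC.SmoothForms E4 X) where
  carrier := {om | ∀ x (v : E4), 0 ≤ lv J (om : DC.TwoForm E4 X) x v}
  add_mem' := by
    intro a b ha hb x v
    rw [lv_add]
    exact add_nonneg (ha x v) (hb x v)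
  zero_mem' := by
    intro x v
    rw [lv_zero]
  smul_mem' := by
    intro c a ha x v
    have h1 : lv J ((c • a : DC.SmoothForms E4 X) : DC.TwoForm E4 X) x v =
      (c : ℝ) * lv J a x v := rfl
    rw [h1]
    exact mul_nonneg c.2 (ha x v)

theorem mem_cone {J : Mfd.EndField X} {om : DC.SmoothForms E4 X} :
    om ∈ cone J ↔ ∀ x (v : E4), 0 ≤ lv J (om : DC.TwoForm E4 X) x v := Iff.rfl

end

/-- The current criterion. -/
theorem criterion.{u} (h : DC.Donaldson.{u}) : DC.CurrentCriterion.{u} := by
  intro X _ _ _ _ _ _ J hJ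
  have hJ' : Mfd.AlmostComplex (X := X) J := ⟨hJ.smooth, hJ.sq⟩
  constructor
  · rintro ⟨om, h1, h2⟩ T hTl hT hc
    have hpos : ∀ x (v : E4), v ≠ 0 → 0 < lv J om x v := fun x v hv => h2.tames x v hv
    have hT0 : T om = 0 := hc om h1.smooth h1.closed
    have key : ∀ th : DC.TwoForm E4 X, DC.SmoothForm th → T th ≤ 0 := by
      intro th hth
      obtain ⟨C, hC⟩ := domination hJ' (om := om) (th := th) h1.smooth hth hpos
      have s1 : DC.SmoothForm (fun x => C • om x : DC.TwoForm E4 X) :=
        (DC.SmoothForms E4 X).smul_mem C h1.smooth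
      have s2 : DC.SmoothForm (fun x => (-1 : ℝ) • th x : DC.TwoForm E4 X) :=
        (DC.SmoothForms E4 X).smul_mem (-1) hth
      have s3 : DC.SmoothForm (fun x => C • om x + (-1 : ℝ) • th x : DC.TwoForm E4 X) :=
        (DC.SmoothForms E4 X).add_mem s1 s2
      have h3 : 0 ≤ T (fun x => C • om x + (-1 : ℝ) • th x) := by
        apply hT _ s3
        intro x v
        have h4 := hC x v
        have h5 : lv J (fun x => C • om x + (-1 : ℝ) • th x : DC.TwoForm E4 X) x v =
              C * lv J om x v + (-1) * lv J th x v := rfl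
        have h6 : 0 ≤ lv J (fun x => C • om x + (-1 : ℝ) • th x : DC.TwoForm E4 X) x v := by
          rw [h5]
          linarith
        exact h6
      have e1 : T (fun x => C • om x + (-1 : ℝ) • th x) =
          T (fun x => C • om x) + T (fun x => (-1 : ℝ) • th x) := hTl.add _ _ s1 s2
      rw [e1, hTl.smul C om h1.smooth, hTl.smul (-1) th hth, hT0] at h3
      linarith
    intro th hth
    have a := key th hth
    have b := key (fun x => (-1 : ℝ) • th x) ((DC.SmoothForms E4 X).smul_mem (-1) hth)
    rw [hTl.smul (-1) th hth] at b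
    linarith
  · intro hT'
    have hT : ∀ T : DC.SmoothForms E4 X →ₗ[ℝ] ℝ,
        (∀ om : DC.SmoothForms E4 X, (∀ x (v : E4), 0 ≤ lv J (om : DC.TwoForm E4 X) x v) →
          0 ≤ T om) →
        (∀ om : DC.SmoothForms E4 X, DC.ClosedForm (om : DC.TwoForm E4 X) → T om = 0) →
        T = 0 := by
      classical
      intro T h1 h2
      let T' : DC.TwoForm E4 X → ℝ := fun om =>
        if hs : om ∈ DC.SmoothForms E4 X then T ⟨om, hs⟩ else 0
      have hT1 : ∀ om (hs : om ∈ DC.SmoothForms E4 X), T' om = T ⟨om, hs⟩ := fun om hs =>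
        dif_pos hs
      have h3 := hT' T'
        { add := by
            intro a b ha hb
            have hab : (fun x => a x + b x : DC.TwoForm E4 X) ∈ DC.SmoothForms E4 X :=
              (DC.SmoothForms E4 X).add_mem ha hb
            rw [hT1 _ hab, hT1 a ha, hT1 b hb]
            exact LinearMap.map_add T ⟨a, ha⟩ ⟨b, hb⟩
          smul := by
            intro c a ha
            have hca : (fun x => c • a x : DC.TwoForm E4 X) ∈ DC.SmoothForms E4 X :=
              (DC.SmoothForms E4 X).smul_mem c ha
            rw [hT1 _ hca, hT1 a ha]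
            exact LinearMap.map_smul T c ⟨a, ha⟩ }
        (by
          intro om hs hp
          rw [hT1 om hs]
          exact h1 ⟨om, hs⟩ fun x v => hp x v)
        (by
          intro om hs hc
          rw [hT1 om hs]
          exact h2 ⟨om, hs⟩ hc)
      refine LinearMap.ext fun om => ?_
      have h4 := h3 om.1 om.2
      rw [hT1 om.1 om.2] at h4
      exact h4
    by_contra hcon
    have hnot : ¬ ∃ om : DC.TwoForm E4 X, DC.Symplectic om ∧ DC.Tames om J :=
      fun hh => hcon (h X J hJ hh)
    -- no closed form is positive on all complex lines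
    have hcl : ∀ z : DC.SmoothForms E4 X, z ∈ ClosedForms X →
        ¬ ∀ x (v : E4), v ≠ 0 → 0 < lv J (z : DC.TwoForm E4 X) x v := by
      intro z hz hpos
      have ht : Mfd.Tames (X := X) (z : DC.TwoForm E4 X) J := fun x v hv => hpos x v hv
      have hsy := symplectic_of (X := X) (J := J) z.2 hz ht
      exact hnot ⟨z, ⟨hsy.smooth, hsy.closed, hsy.nondegenerate⟩, ht⟩
    obtain ⟨A⟩ := exists_finAtlas hJ'
    let th0 : DC.SmoothForms E4 X := ⟨herm A, herm_smooth hJ' A⟩
    have hth0 : ∀ x (v : E4), v ≠ 0 → 0 < lv J (th0 : DC.TwoForm E4 X) x v :=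
      fun x v hv => herm_pos hJ' A x v hv
    let f0 : DC.SmoothForms E4 X →ₗ.[ℝ] ℝ := ⟨ClosedForms X, 0⟩
    have hx : th0 ∉ f0.domain := fun hh => hcl th0 hh hth0
    obtain ⟨T, hTf, hTs⟩ := riesz_extension (cone (X := X) J) (f0.supSpanSingleton th0 1 hx)
      (by
        rintro ⟨x, hxd⟩ hxs
        obtain ⟨z, hz, w, hw, rfl⟩ := Submodule.mem_sup.1 hxd
        obtain ⟨c, rfl⟩ := Submodule.mem_span_singleton.1 hw
        rw [LinearPMap.supSpanSingleton_apply_mk f0 th0 1 hx z hz c]
        have h1 : f0 ⟨z, hz⟩ = 0 := rfl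
        rw [h1, zero_add]
        simp only [RingHom.id_apply, smul_eq_mul, mul_one]
        by_contra hneg
        push Not at hneg
        refine hcl z hz fun x v hv => ?_
        have h2 := mem_cone.1 hxs x v
        have h3 : lv J ((z + c • th0 : DC.SmoothForms E4 X) : DC.TwoForm E4 X) x v =
          lv J z x v + c * lv J th0 x v := rfl
        have h2' : 0 ≤ lv J z x v + c * lv J th0 x v := by
          rw [← h3]
          exact h2
        have h4 := hth0 x v hv
        nlinarith)
      (by
        intro y
        obtain ⟨C, hC⟩ := domination hJ' (om := (th0 : DC.TwoForm E4 X))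
          (th := ((-y : DC.SmoothForms E4 X) : DC.TwoForm E4 X)) th0.2 (-y).2 hth0
        refine ⟨⟨C • th0, Submodule.mem_sup_right (Submodule.smul_mem _ _
          (Submodule.mem_span_singleton_self _))⟩, ?_⟩
        rw [mem_cone]
        intro x v
        have h1 := hC x v
        have h2 : lv J ((C • th0 + y : DC.SmoothForms E4 X) : DC.TwoForm E4 X) x v =
          C * lv J th0 x v + lv J y x v := rfl
        have h3 : lv J ((-y : DC.SmoothForms E4 X) : DC.TwoForm E4 X) x v = - lv J y x v := rfl
        have h4 : 0 ≤ lv J ((C • th0 + y : DC.SmoothForms E4 X) : DC.TwoForm E4 X) x v := by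
          rw [h2]
          rw [h3] at h1
          linarith
        exact h4)
    have hT1 : T = 0 := by
      apply hT T
      · intro om hom
        exact hTs om (mem_cone.2 fun x v => hom x v)
      · intro om hom
        have h1 : om ∈ f0.domain := hom
        have h2 := hTf ⟨om, Submodule.mem_sup_left h1⟩
        have h3 := LinearPMap.supSpanSingleton_apply_mk_of_mem f0 (x := th0) 1 hx h1
        have h4 : T om = (f0.supSpanSingleton th0 1 hx) ⟨om, Submodule.mem_sup_left h1⟩ := h2
        rw [h4, h3]
        rfl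
    have h5 := hTf ⟨th0, Submodule.mem_sup_right (Submodule.mem_span_singleton_self _)⟩
    have h6 := LinearPMap.supSpanSingleton_apply_self f0 (x := th0) 1 hx
    have h7 : T th0 = 1 := h5.trans h6
    rw [hT1] at h7
    exact zero_ne_one h7

end Vale.Agent.P204.H298
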