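import Vale.Agent.P204.H298.Defs
import Vale.Agent.P204.H298.Forms
import Vale.Agent.P204.Bdl.B8

attribute [-instance] ProperSMul.toContinuousSMul IsTopologicalTorsor.toContinuousSMul IdemSemiring.toCanonicallyOrderedAdd IdemSemiring.toMulLeftMono IdemSemiring.toMulRightMono AddQuantale.instAddLeftMono AddQuantale.instAddRightMono Quantale.instMulLeftMono Quantale.instMulRightMono FiniteDimensional.rclike_to_real IsScalarTower.complexToReal FiniteDimensional.complexToReal

set_option linter.all false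

/-!
# P204: pullback of two-forms by smooth maps `X → X`
-/

open scoped Manifold ContDiff Topology
open Set

namespace Vale.Agent.P204.H298

open Vale.Agent.P204.Mfd Vale.Agent.P204.T4

variable {X : Type*} [TopologicalSpace X] [ChartedSpace E4 X]

/-- The pullback of a two-form by a map. -/
noncomputable def pb (φ : X → X) (om : Mfd.TwoForm X) : Mfd.TwoForm X := fun x =>
  (om (φ x)).compContinuousLinearMap (mfderiv (𝓡 4) (𝓡 4) φ x)

/-- the derivative of a map, with the tangent spaces identified with the model space -/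
noncomputable def dmap (φ : X → X) (x : X) : E4 →L[ℝ] E4 := mfderiv (𝓡 4) (𝓡 4) φ x

theorem pb_apply (φ : X → X) (om : Mfd.TwoForm X) (x : X) (u v : E4) :
    pb φ om x ![u, v] = om (φ x) ![dmap φ x u, dmap φ x v] :=
  comp_apply2 (E := E4) (F := E4) (om (φ x)) (dmap φ x) u v

variable [IsManifold (𝓡 4) ∞ X]

section

variable {φ : X → X} (hφ : ContMDiff (𝓡 4) (𝓡 4) ∞ φ)

include hφ

/-- the expression of `φ` in two parametrisations -/
noncomputable def sg (φ : X → X) (p q : Par X) (y : V4) : V4 := q.inv (φ (p.psi y))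

theorem isOpen_sdom (p q : Par X) : IsOpen {y : V4 | φ (p.psi y) ∈ range q.psi} :=
  q.isOpen_range.preimage (hφ.continuous.comp p.isOpenEmbedding.continuous)

theorem sg_smoothAt (p q : Par X) {y : V4} (hy : φ (p.psi y) ∈ range q.psi) :
    ContDiffAt ℝ ∞ (sg φ p q) y := by
  have h1 : ContMDiffOn 𝓘(ℝ, V4) 𝓘(ℝ, V4) ∞ (sg φ p q) {y : V4 | φ (p.psi y) ∈ range q.psi} :=
    q.contMDiffOn_inv.comp (hφ.comp p.contMDiff_psi).contMDiffOn (fun y hy => hy)
  rw [contMDiffOn_iff_contDiffOn] at h1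
  exact (h1 _ hy).contDiffAt ((isOpen_sdom hφ p q).mem_nhds hy)

theorem dmap_dpsi (p q : Par X) {y : V4} (hy : φ (p.psi y) ∈ range q.psi) :
    (dmap φ (p.psi y)).comp (p.dpsi y) = (q.dpsi (sg φ p q y)).comp (fderiv ℝ (sg φ p q) y) := by
  have h1 := mfderiv_comp (I := 𝓘(ℝ, V4)) (I' := 𝓘(ℝ, V4)) (I'' := 𝓡 4) y
    (q.mdiff_psi (sg φ p q y))
    ((sg_smoothAt hφ p q hy).differentiableAt (by simp)).mdifferentiableAt
  have h2 : q.psi ∘ (sg φ p q) =ᶠ[𝓝 y] φ ∘ p.psi := by
    filter_upwards [(isOpen_sdom hφ p q).mem_nhds hy] with z hz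
    exact q.psi_inv hz
  rw [h2.mfderiv_eq, mfderiv_eq_fderiv] at h1
  have h3 := mfderiv_comp (I := 𝓘(ℝ, V4)) (I' := 𝓡 4) (I'' := 𝓡 4) y
    ((hφ (p.psi y)).mdifferentiableAt (by simp)) (p.mdiff_psi y)
  rw [h3] at h1
  exact h1

theorem form_pb (p q : Par X) (om : Mfd.TwoForm X) {y : V4} (hy : φ (p.psi y) ∈ range q.psi) :
    p.form (pb φ om) y =
      (q.form om (sg φ p q y)).compContinuousLinearMap (fderiv ℝ (sg φ p q) y) := by
  apply alt_ext
  intro v w
  rw [comp_apply2, Par.form_apply, Par.form_apply, pb_apply]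
  have h1 : ∀ v, dmap φ (p.psi y) (p.dpsi y v) =
      q.dpsi (sg φ p q y) (fderiv ℝ (sg φ p q) y v) := fun v =>
    DFunLike.congr_fun (dmap_dpsi hφ p q hy) v
  rw [h1, h1]
  exact om_congr om (q.psi_inv hy).symm _ _

theorem form_pb_smooth {om : Mfd.TwoForm X} (hom : Mfd.SmoothForm om) (p : Par X) :
    ContDiff ℝ ∞ (p.form (pb φ om)) := by
  rw [contDiff_iff_contDiffAt]
  intro y
  obtain ⟨q, hq, -⟩ := exists_par (φ (p.psi y)) (ContinuousLinearEquiv.refl ℝ V4)
  have hy : φ (p.psi y) ∈ range q.psi := ⟨0, hq⟩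
  have h1 : p.form (pb φ om) =ᶠ[𝓝 y] fun y =>
      (q.form om (sg φ p q y)).compContinuousLinearMap (fderiv ℝ (sg φ p q) y) := by
    filter_upwards [(isOpen_sdom hφ p q).mem_nhds hy] with z hz
    exact form_pb hφ p q om hz
  refine ContDiffAt.congr_of_eventuallyEq ?_ h1
  have hs := sg_smoothAt hφ p q hy
  rw [← contDiffAt_cV_iff]
  have h2 : (fun y => cV ((q.form om (sg φ p q y)).compContinuousLinearMap
      (fderiv ℝ (sg φ p q) y))) =
      fun y => pull (matL (fderiv ℝ (sg φ p q) y)) (cV (q.form om (sg φ p q y))) := by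
    funext z
    rw [cV_apply, cV_apply, compL_comp]
  rw [h2]
  apply contDiffAt_pull
  · exact matL.contDiff.contDiffAt.comp y (hs.fderiv_right (m := ∞) (by simp))
  · exact cV.contDiff.contDiffAt.comp y ((q.form_smooth hom).contDiffAt.comp y hs)

theorem form_pb_closed {om : Mfd.TwoForm X} (hom : Mfd.SmoothForm om) (hc : Mfd.ClosedForm om)
    (p : Par X) (y : V4) : extDeriv (p.form (pb φ om)) y = 0 := by
  obtain ⟨q, hq, -⟩ := exists_par (φ (p.psi y)) (ContinuousLinearEquiv.refl ℝ V4)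
  have hy : φ (p.psi y) ∈ range q.psi := ⟨0, hq⟩
  have h1 : p.form (pb φ om) =ᶠ[𝓝 y] fun y =>
      (q.form om (sg φ p q y)).compContinuousLinearMap (fderiv ℝ (sg φ p q) y) := by
    filter_upwards [(isOpen_sdom hφ p q).mem_nhds hy] with z hz
    exact form_pb hφ p q om hz
  rw [h1.extDeriv_eq, extDeriv_pullback (r := ∞)
    ((q.form_smooth hom).differentiable (by simp) _) (sg_smoothAt hφ p q hy) minS,
    q.form_closed hom hc]
  ext m; rfl

theorem pb_smoothForm {om : Mfd.TwoForm X} (hom : Mfd.SmoothForm om) :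
    Mfd.SmoothForm (pb φ om) := by
  choose P hP _ using fun x : X => exists_par x (ContinuousLinearEquiv.refl ℝ V4)
  exact smoothForm_of_pars P (fun x => ⟨x, 0, hP x⟩) (fun i => form_pb_smooth hφ hom (P i))

theorem pb_closedForm {om : Mfd.TwoForm X} (hom : Mfd.SmoothForm om) (hc : Mfd.ClosedForm om) :
    Mfd.ClosedForm (pb φ om) := by
  choose P hP _ using fun x : X => exists_par x (ContinuousLinearEquiv.refl ℝ V4)
  exact closedForm_of_pars P (fun x => ⟨x, 0, hP x⟩) (fun i => form_pb_smooth hφ hom (P i))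
    (fun i y => form_pb_closed hφ hom hc (P i) y)

end

end Vale.Agent.P204.H298
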