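import Vale.Agent.P204.H298.Equi

attribute [-instance] ProperSMul.toContinuousSMul IsTopologicalTorsor.toContinuousSMul IdemSemiring.toCanonicallyOrderedAdd IdemSemiring.toMulLeftMono IdemSemiring.toMulRightMono AddQuantale.instAddLeftMono AddQuantale.instAddRightMono Quantale.instMulLeftMono Quantale.instMulRightMono FiniteDimensional.rclike_to_real IsScalarTower.complexToReal FiniteDimensional.complexToReal

set_option linter.all false

/-!
# P204: domination of forms on complex lines, and a smooth form which is positive on all of them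
-/

open scoped Manifold ContDiff Topology
open Set

namespace Vale.Agent.P204.H298

open Vale.Agent.P204.Mfd Vale.Agent.P204.T4

variable {X : Type*} [TopologicalSpace X] [ChartedSpace E4 X] [IsManifold (𝓡 4) ∞ X]

/-- the value of a form on the complex line of `v` -/
noncomputable def lv (J : Mfd.EndField X) (om : Mfd.TwoForm X) (x : X) (v : E4) : ℝ :=
  om x ![v, Jat J x v]

/-- the same in a parametrisation -/
noncomputable def lc (p : Par X) (J : Mfd.EndField X) (om : Mfd.TwoForm X) (y w : V4) : ℝ :=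
  ev (compL (p.form om y)) w (p.endo J y w)

theorem lv_dpsi (p : Par X) (J : Mfd.EndField X) (om : Mfd.TwoForm X) (y w : V4) :
    lv J om (p.psi y) (p.dpsi y w) = lc p J om y w := by
  unfold lv lc
  rw [ev_compL, Par.form_apply, Par.endo_apply, Par.dpsi_dinv]

theorem lc_smul (p : Par X) (J : Mfd.EndField X) (om : Mfd.TwoForm X) (y w : V4) (c : ℝ) :
    lc p J om y (c • w) = c ^ 2 * lc p J om y w := by
  unfold lc
  rw [map_smul, ev_eq, ev_eq]
  simp only [Pi.smul_apply, smul_eq_mul]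
  ring

theorem lc_continuous (p : Par X) {J : Mfd.EndField X} (hJ : Mfd.SmoothEnd J)
    {om : Mfd.TwoForm X} (hom : Mfd.SmoothForm om) :
    Continuous fun z : V4 × V4 => lc p J om z.1 z.2 := by
  have h1 : Continuous fun z : V4 × V4 => compL (p.form om z.1) :=
    compL.continuous.comp ((p.form_smooth hom).continuous.comp continuous_fst)
  have h2 : Continuous fun z : V4 × V4 => p.endo J z.1 z.2 :=
    ((p.endo_smooth hJ).continuous.comp continuous_fst).clm_apply continuous_snd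
  have h1' : ∀ i, Continuous fun z : V4 × V4 => compL (p.form om z.1) i := fun i =>
    (continuous_apply i).comp h1
  have h2' : ∀ i, Continuous fun z : V4 × V4 => p.endo J z.1 z.2 i := fun i =>
    (continuous_apply i).comp h2
  have h3' : ∀ i, Continuous fun z : V4 × V4 => z.2 i := fun i =>
    (continuous_apply i).comp continuous_snd
  unfold lc
  simp only [ev_eq]
  have key : ∀ k i j, Continuous fun z : V4 × V4 => compL (p.form om z.1) k *
      (z.2 i * p.endo J z.1 z.2 j - z.2 j * p.endo J z.1 z.2 i) := fun k i j =>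
    (h1' k).mul (((h3' i).mul (h2' j)).sub ((h3' j).mul (h2' i)))
  exact (((((key 0 0 1).add (key 1 0 2)).add (key 2 0 3)).add (key 3 1 2)).add
    (key 4 1 3)).add (key 5 2 3)

/-- domination in one parametrisation -/
theorem dom_par (p : Par X) {J : Mfd.EndField X} (hJ : Mfd.SmoothEnd J)
    {om th : Mfd.TwoForm X} (hom : Mfd.SmoothForm om) (hth : Mfd.SmoothForm th)
    (hpos : ∀ x (v : E4), v ≠ 0 → 0 < lv J om x v) :
    ∃ C : ℝ, 0 ≤ C ∧ ∀ y w : V4, ‖y‖ ≤ 1 → lc p J th y w ≤ C * lc p J om y w := by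
  have hK : IsCompact (Metric.closedBall (0 : V4) 1 ×ˢ Metric.sphere (0 : V4) 1) :=
    (isCompact_closedBall _ _).prod (isCompact_sphere _ _)
  have hne : (Metric.closedBall (0 : V4) 1 ×ˢ Metric.sphere (0 : V4) 1).Nonempty := by
    obtain ⟨w, hw⟩ := (NormedSpace.sphere_nonempty (E := V4) (x := 0) (r := 1)).2 zero_le_one
    exact ⟨(0, w), Set.mk_mem_prod (Metric.mem_closedBall_self zero_le_one) hw⟩
  have hpos' : ∀ y w : V4, w ≠ 0 → 0 < lc p J om y w := by
    intro y w hw
    rw [← lv_dpsi]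
    apply hpos
    intro h0
    apply hw
    have := p.dinv_dpsi y w
    rw [h0, map_zero] at this
    exact this.symm
  obtain ⟨z0, hz0, hmin⟩ := hK.exists_isMinOn hne (lc_continuous p hJ hom).continuousOn
  obtain ⟨M, hM⟩ := hK.exists_bound_of_continuousOn (lc_continuous p hJ hth).continuousOn
  have hw0 : z0.2 ≠ 0 := by
    intro h0
    have : ‖z0.2‖ = 1 := mem_sphere_zero_iff_norm.1 hz0.2
    rw [h0, norm_zero] at this
    exact zero_ne_one this
  set m := lc p J om z0.1 z0.2 with hm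
  have hmpos : 0 < m := hpos' _ _ hw0
  have hM0 : 0 ≤ M := (norm_nonneg _).trans (hM z0 hz0)
  refine ⟨M / m, div_nonneg hM0 hmpos.le, ?_⟩
  intro y w hy
  by_cases hw : w = 0
  · subst hw
    have e1 := lc_smul p J th y 0 0
    have e2 := lc_smul p J om y 0 0
    simp only [smul_zero, ne_eq, OfNat.ofNat_ne_zero, not_false_eq_true, zero_pow,
      zero_mul] at e1 e2
    rw [e1, e2, mul_zero]
  · have hs : 0 < ‖w‖ := norm_pos_iff.2 hw
    have hw' : ‖‖w‖⁻¹ • w‖ = 1 := by
      rw [norm_smul, norm_inv, norm_norm, inv_mul_cancel₀ hs.ne']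
    have hmem : (y, ‖w‖⁻¹ • w) ∈ Metric.closedBall (0 : V4) 1 ×ˢ Metric.sphere (0 : V4) 1 := by
      exact Set.mk_mem_prod (mem_closedBall_zero_iff.2 hy) (mem_sphere_zero_iff_norm.2 hw')
    have h0 : ‖lc p J th y (‖w‖⁻¹ • w)‖ ≤ M := hM (y, ‖w‖⁻¹ • w) hmem
    have h1 : lc p J th y (‖w‖⁻¹ • w) ≤ M := (Real.le_norm_self _).trans h0
    have h2 : m ≤ lc p J om y (‖w‖⁻¹ • w) := isMinOn_iff.1 hmin (y, ‖w‖⁻¹ • w) hmem
    have h3 : lc p J th y (‖w‖⁻¹ • w) ≤ M / m * lc p J om y (‖w‖⁻¹ • w) := by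
      refine h1.trans ?_
      rw [div_mul_eq_mul_div, le_div_iff₀ hmpos]
      exact mul_le_mul_of_nonneg_left h2 hM0
    have h4 : w = ‖w‖ • (‖w‖⁻¹ • w) := by
      rw [smul_smul, mul_inv_cancel₀ hs.ne', one_smul]
    have h5 : lc p J th y w = ‖w‖ ^ 2 * lc p J th y (‖w‖⁻¹ • w) := by
      conv_lhs => rw [h4]
      rw [lc_smul]
    have h6 : lc p J om y w = ‖w‖ ^ 2 * lc p J om y (‖w‖⁻¹ • w) := by
      conv_lhs => rw [h4]
      rw [lc_smul]
    rw [h5, h6]
    calc ‖w‖ ^ 2 * lc p J th y (‖w‖⁻¹ • w)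
        ≤ ‖w‖ ^ 2 * (M / m * lc p J om y (‖w‖⁻¹ • w)) :=
          mul_le_mul_of_nonneg_left h3 (by positivity)
      _ = M / m * (‖w‖ ^ 2 * lc p J om y (‖w‖⁻¹ • w)) := by ring

/-- domination on the whole manifold -/
theorem domination [CompactSpace X] {J : Mfd.EndField X} (hJ : Mfd.AlmostComplex J)
    {om th : Mfd.TwoForm X} (hom : Mfd.SmoothForm om) (hth : Mfd.SmoothForm th)
    (hpos : ∀ x (v : E4), v ≠ 0 → 0 < lv J om x v) :
    ∃ C : ℝ, ∀ x (v : E4), lv J th x v ≤ C * lv J om x v := by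
  obtain ⟨A⟩ := exists_finAtlas hJ
  choose C hC0 hC using fun a => dom_par (A.P a) hJ.smooth hom hth hpos
  refine ⟨∑ a, C a, fun x v => ?_⟩
  obtain ⟨a, y, hy, rfl⟩ := A.cov x
  have hv : v = (A.P a).dpsi y ((A.P a).dinv ((A.P a).psi y) v) := ((A.P a).dpsi_dinv y v).symm
  rw [hv, lv_dpsi, lv_dpsi]
  refine (hC a y _ hy.le).trans ?_
  refine mul_le_mul_of_nonneg_right (Finset.single_le_sum (fun b _ => hC0 b)
    (Finset.mem_univ a)) ?_
  rw [← lv_dpsi]
  by_cases h0 : (A.P a).dpsi y ((A.P a).dinv ((A.P a).psi y) v) = 0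
  · rw [h0]
    unfold lv
    have h1 := alt_smul_left (om ((A.P a).psi y)) 0 0 (Jat J ((A.P a).psi y) 0)
    rw [zero_smul, zero_mul] at h1
    exact h1.ge
  · exact (hpos _ _ h0).le

end Vale.Agent.P204.H298
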